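import Mathlib

/-!
# The rank inequality of the commuting square

`N x u` means that `u` is in the closed out-neighbourhood of `x`. One generic matrix `W` over the
fraction field of a polynomial ring is used in both coordinates.
-/

namespace P038.H766

open MvPolynomial

universe u

variable {V : Type u} [Fintype V] [DecidableEq V]

/-- A generic matrix with zero pattern `N`: every block satisfying Hall's condition is
injective. -/
theorem exists_generic (N : V → V → Prop) : ∃ (K : Type u) (_ : Field K) (W : V → V → K),
    (∀ u x, ¬ N x u → W u x = 0) ∧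
    ∀ (S : Finset V) (T : V → Prop),
      (∀ S' : Finset V, S' ⊆ S →
        ∀ Z : Finset V, (∀ u, u ∈ Z ↔ (T u ∧ ∃ x ∈ S', N x u)) → S'.card ≤ Z.card) →
      ∀ v : V → K, (∀ u, T u → ∑ x ∈ S, W u x * v x = 0) → ∀ x ∈ S, v x = 0 := by
  classical
  refine ⟨FractionRing (MvPolynomial (V × V) ℚ), inferInstance,
    fun u x => if N x u then algebraMap (MvPolynomial (V × V) ℚ) _ (X (u, x)) else 0, ?_, ?_⟩
  · intro u x h
    simp [h]
  · intro S T hall v hv
    have hH : ∀ s : Finset S, s.card ≤
        (s.biUnion (fun x : S => Finset.univ.filter (fun u => T u ∧ N x u))).card := by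
      intro s
      have h1 := hall (s.map (Function.Embedding.subtype _)) (by
        intro x hx
        rw [Finset.mem_map] at hx
        obtain ⟨y, _, rfl⟩ := hx
        exact y.2)
        (s.biUnion (fun x : S => Finset.univ.filter (fun u => T u ∧ N x u))) (by
        intro u
        constructor
        · intro hu
          rw [Finset.mem_biUnion] at hu
          obtain ⟨x, hx, hxu⟩ := hu
          rw [Finset.mem_filter] at hxu
          exact ⟨hxu.2.1, x, Finset.mem_map.mpr ⟨x, hx, rfl⟩, hxu.2.2⟩
        · rintro ⟨hT, x, hx, hxu⟩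
          rw [Finset.mem_map] at hx
          obtain ⟨y, hy, rfl⟩ := hx
          rw [Finset.mem_biUnion]
          exact ⟨y, hy, Finset.mem_filter.mpr ⟨Finset.mem_univ _, hT, hxu⟩⟩)
      rw [Finset.card_map] at h1
      exact h1
    obtain ⟨f, hf, hft⟩ := (Finset.all_card_le_biUnion_card_iff_exists_injective _).mp hH
    have hfT : ∀ x : S, T (f x) ∧ N x (f x) := fun x => (Finset.mem_filter.mp (hft x)).2
    let M : Matrix S S (MvPolynomial (V × V) ℚ) :=
      fun i j => if N j (f i) then X (f i, (j : V)) else 0
    let g : V × V → ℚ := fun p => if ∃ h : p.2 ∈ S, f ⟨p.2, h⟩ = p.1 then 1 else 0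
    have hdet : M.det ≠ 0 := by
      intro h0
      have h1 : (eval g) M.det = 0 := by rw [h0, map_zero]
      rw [RingHom.map_det] at h1
      have h2 : (eval g).mapMatrix M = 1 := by
        ext i j
        rw [RingHom.mapMatrix_apply, Matrix.map_apply, Matrix.one_apply]
        by_cases hij : i = j
        · subst hij
          have e1 : M i i = X (f i, (i : V)) := if_pos (hfT i).2
          rw [e1, eval_X, if_pos rfl]
          exact if_pos ⟨i.2, rfl⟩
        · rw [if_neg hij]
          by_cases hN : N j (f i)
          · have e1 : M i j = X (f i, (j : V)) := if_pos hN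
            rw [e1, eval_X]
            refine if_neg ?_
            rintro ⟨h, h'⟩
            exact hij (hf h').symm
          · have e1 : M i j = 0 := if_neg hN
            rw [e1, map_zero]
      rw [h2, Matrix.det_one] at h1
      exact one_ne_zero h1
    let M' : Matrix S S (FractionRing (MvPolynomial (V × V) ℚ)) :=
      (algebraMap (MvPolynomial (V × V) ℚ) (FractionRing (MvPolynomial (V × V) ℚ))).mapMatrix M
    have hdet' : M'.det ≠ 0 := by
      have : M'.det = algebraMap _ _ M.det := (RingHom.map_det _ _).symm
      rw [this]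
      exact (map_ne_zero_iff _ (IsFractionRing.injective _ _)).mpr hdet
    have hz : M'.mulVec (fun j : S => v j) = 0 := by
      funext i
      rw [Matrix.mulVec, dotProduct, Pi.zero_apply, ← hv (f i) (hfT i).1]
      rw [← Finset.sum_coe_sort S]
      refine Finset.sum_congr rfl fun j _ => ?_
      congr 1
      have e0 : M' i j = algebraMap (MvPolynomial (V × V) ℚ)
        (FractionRing (MvPolynomial (V × V) ℚ)) (M i j) := rfl
      rw [e0]
      by_cases h : N j (f i)
      · have e1 : M i j = X (f i, (j : V)) := if_pos h
        rw [e1]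
        exact (if_pos h).symm
      · have e1 : M i j = 0 := if_neg h
        rw [e1, map_zero]
        exact (if_neg h).symm
    have hv0 := Matrix.eq_zero_of_mulVec_eq_zero hdet' hz
    intro x hx
    exact congrFun hv0 ⟨x, hx⟩

/-- Sylvester: `K^A → K^H → K^E` with the first injective and the second surjective. -/
theorem rank_comp {K : Type*} [Field K] {A G H E : Type*} [Fintype A] [Fintype G] [Fintype H]
    [Fintype E] [DecidableEq A] [DecidableEq G] [DecidableEq H] [DecidableEq E]
    (M1 : Matrix E G K) (M2 : Matrix G A K) (M3 : Matrix E H K) (M4 : Matrix H A K)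
    (hc : M1 * M2 = M3 * M4) (h4 : ∀ v, M4.mulVec v = 0 → v = 0)
    (h3 : ∀ v, M3.transpose.mulVec v = 0 → v = 0) :
    Fintype.card A + Fintype.card E ≤ Fintype.card G + Fintype.card H := by
  have r1 : (M1 * M2).rank ≤ Fintype.card G :=
    (Matrix.rank_mul_le_left M1 M2).trans (Matrix.rank_le_card_width M1)
  have r3 : M3.rank = Fintype.card E := by
    rw [← Matrix.rank_transpose]
    have hinj : Function.Injective M3.transpose.mulVecLin := by
      rw [← LinearMap.ker_eq_bot, LinearMap.ker_eq_bot']
      intro v hv
      exact h3 v hv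
    have := LinearMap.finrank_range_of_inj hinj
    rw [Matrix.rank, this, Module.finrank_fintype_fun_eq_card]
  have k3 := LinearMap.finrank_range_add_finrank_ker M3.mulVecLin
  have k34 := LinearMap.finrank_range_add_finrank_ker (M3 * M4).mulVecLin
  rw [Module.finrank_fintype_fun_eq_card] at k3 k34
  have hle : Module.finrank K (LinearMap.ker (M3 * M4).mulVecLin) ≤
      Module.finrank K (LinearMap.ker M3.mulVecLin) := by
    have hmem : ∀ v ∈ LinearMap.ker (M3 * M4).mulVecLin,
        M4.mulVecLin v ∈ LinearMap.ker M3.mulVecLin := by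
      intro v hv
      rw [LinearMap.mem_ker] at hv ⊢
      rw [Matrix.mulVecLin_mul, LinearMap.comp_apply] at hv
      exact hv
    let φ : LinearMap.ker (M3 * M4).mulVecLin →ₗ[K] LinearMap.ker M3.mulVecLin :=
      M4.mulVecLin.restrict hmem
    refine LinearMap.finrank_le_finrank_of_injective (f := φ) ?_
    rw [← LinearMap.ker_eq_bot, LinearMap.ker_eq_bot']
    intro v hv
    have : M4.mulVec (v : A → K) = 0 := congrArg Subtype.val hv
    exact Subtype.ext (h4 _ this)
  have e3 : Module.finrank K (LinearMap.range M3.mulVecLin) = Fintype.card E := r3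
  have e1 : Module.finrank K (LinearMap.range (M3 * M4).mulVecLin) ≤ Fintype.card G := by
    rw [← hc]; exact r1
  omega

/-- **The rank inequality**: `N x u` means that `u` is in the closed out-neighbourhood of `x`. -/
theorem la_key (N : V → V → Prop) (A G H E : Finset (V × V))
    (hsq : ∀ a x a' u, (a, x) ∈ A → (a', u) ∈ E → N a' a → N x u → (a', x) ∈ G ∧ (a, u) ∈ H)
    (hrow : ∀ a, ∀ S : Finset V, (∀ x ∈ S, (a, x) ∈ A) → ∀ Z : Finset V,
      (∀ u, u ∈ Z ↔ ((a, u) ∈ H ∧ ∃ x ∈ S, N x u)) → S.card ≤ Z.card)
    (hcol : ∀ u, ∀ S : Finset V, (∀ a' ∈ S, (a', u) ∈ E) → ∀ Z : Finset V,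
      (∀ a, a ∈ Z ↔ ((a, u) ∈ H ∧ ∃ a' ∈ S, N a' a)) → S.card ≤ Z.card) :
    A.card + E.card ≤ G.card + H.card := by
  classical
  obtain ⟨K, _, W, hW0, hW⟩ := exists_generic N
  let M1 : Matrix E G K := fun e g => if e.1.1 = g.1.1 then W e.1.2 g.1.2 else 0
  let M2 : Matrix G A K := fun g p => if g.1.2 = p.1.2 then W p.1.1 g.1.1 else 0
  let M3 : Matrix E H K := fun e h => if e.1.2 = h.1.2 then W h.1.1 e.1.1 else 0
  let M4 : Matrix H A K := fun h p => if h.1.1 = p.1.1 then W h.1.2 p.1.2 else 0
  have hc : M1 * M2 = M3 * M4 := by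
    ext ⟨⟨a', u⟩, he⟩ ⟨⟨a, x⟩, hp⟩
    rw [Matrix.mul_apply, Matrix.mul_apply]
    by_cases hN : N a' a ∧ N x u
    · obtain ⟨hG, hH⟩ := hsq a x a' u hp he hN.1 hN.2
      rw [Finset.sum_eq_single (⟨(a', x), hG⟩ : G), Finset.sum_eq_single (⟨(a, u), hH⟩ : H)]
      · simp only [M1, M2, M3, M4, if_true]
        exact mul_comm _ _
      · rintro ⟨⟨h1, h2⟩, hh⟩ _ hne
        simp only [M3, M4]
        by_cases e2 : u = h2
        · by_cases e1 : h1 = a
          · subst e1 e2
            exact absurd rfl hne
          · rw [if_neg e1, mul_zero]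
        · rw [if_neg e2, zero_mul]
      · intro h
        exact absurd (Finset.mem_univ _) h
      · rintro ⟨⟨g1, g2⟩, hg⟩ _ hne
        simp only [M1, M2]
        by_cases e1 : a' = g1
        · by_cases e2 : g2 = x
          · subst e1 e2
            exact absurd rfl hne
          · rw [if_neg e2, mul_zero]
        · rw [if_neg e1, zero_mul]
      · intro h
        exact absurd (Finset.mem_univ _) h
    · have hz : W a a' = 0 ∨ W u x = 0 := by
        by_cases h1 : N a' a
        · right
          apply hW0
          intro h2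
          exact hN ⟨h1, h2⟩
        · left
          exact hW0 _ _ h1
      rw [Finset.sum_eq_zero, Finset.sum_eq_zero]
      · rintro ⟨⟨h1, h2⟩, hh⟩ _
        simp only [M3, M4]
        by_cases e2 : u = h2
        · by_cases e1 : h1 = a
          · subst e1 e2
            rw [if_pos rfl, if_pos rfl]
            rcases hz with h | h
            · rw [h, zero_mul]
            · rw [h, mul_zero]
          · rw [if_neg e1, mul_zero]
        · rw [if_neg e2, zero_mul]
      · rintro ⟨⟨g1, g2⟩, hg⟩ _
        simp only [M1, M2]
        by_cases e1 : a' = g1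
        · by_cases e2 : g2 = x
          · subst e1 e2
            rw [if_pos rfl, if_pos rfl]
            rcases hz with h | h
            · rw [h, mul_zero]
            · rw [h, zero_mul]
          · rw [if_neg e2, mul_zero]
        · rw [if_neg e1, zero_mul]
  -- injectivity of `M4`
  have h4 : ∀ v, M4.mulVec v = 0 → v = 0 := by
    intro v hv
    funext p
    obtain ⟨⟨a, x⟩, hp⟩ := p
    let S : Finset V := Finset.univ.filter (fun y => (a, y) ∈ A)
    let v' : V → K := fun y => if h : (a, y) ∈ A then v ⟨(a, y), h⟩ else 0
    have key := hW S (fun u => (a, u) ∈ H) (fun S' hS' Z hZ => hrow a S' (fun y hy =>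
      (Finset.mem_filter.mp (hS' hy)).2) Z hZ) v' (by
        intro u hu
        have h1 := congrFun hv ⟨(a, u), hu⟩
        rw [Matrix.mulVec, dotProduct, Pi.zero_apply] at h1
        rw [← h1]
        symm
        -- sum over A of M4 (a,u) p * v p = sum over S
        rw [← Finset.sum_subset (Finset.subset_univ (Finset.univ.filter
          (fun p : A => p.1.1 = a)))]
        · refine Finset.sum_bij (fun p _ => p.1.2) ?_ ?_ ?_ ?_
          · rintro ⟨⟨b, y⟩, hb⟩ hq
            have : b = a := (Finset.mem_filter.mp hq).2
            subst this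
            exact Finset.mem_filter.mpr ⟨Finset.mem_univ _, hb⟩
          · rintro ⟨⟨b, y⟩, hb⟩ hq ⟨⟨b', y'⟩, hb'⟩ hq' hyy
            have e1 : b = a := (Finset.mem_filter.mp hq).2
            have e2 : b' = a := (Finset.mem_filter.mp hq').2
            subst e1 e2
            have : y = y' := hyy
            subst this
            rfl
          · intro y hy
            have hy' := (Finset.mem_filter.mp hy).2
            exact ⟨⟨(a, y), hy'⟩, Finset.mem_filter.mpr ⟨Finset.mem_univ _, rfl⟩, rfl⟩
          · rintro ⟨⟨b, y⟩, hb⟩ hq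
            have : b = a := (Finset.mem_filter.mp hq).2
            subst this
            simp only [M4, v', if_true]
            rw [dif_pos hb]
        · rintro ⟨⟨b, y⟩, hb⟩ _ hq
          have : ¬ a = b := by
            intro h
            exact hq (Finset.mem_filter.mpr ⟨Finset.mem_univ _, h.symm⟩)
          simp only [M4]
          rw [if_neg this, zero_mul])
    have := key x (Finset.mem_filter.mpr ⟨Finset.mem_univ _, hp⟩)
    simp only [v'] at this
    rw [dif_pos hp] at this
    exact this
  -- injectivity of the transpose of `M3`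
  have h3 : ∀ v, M3.transpose.mulVec v = 0 → v = 0 := by
    intro v hv
    funext p
    obtain ⟨⟨x, a⟩, hp⟩ := p
    let S : Finset V := Finset.univ.filter (fun y => (y, a) ∈ E)
    let v' : V → K := fun y => if h : (y, a) ∈ E then v ⟨(y, a), h⟩ else 0
    have key := hW S (fun u => (u, a) ∈ H) (fun S' hS' Z hZ => hcol a S' (fun y hy =>
      (Finset.mem_filter.mp (hS' hy)).2) Z hZ) v' (by
        intro u hu
        have h1 := congrFun hv ⟨(u, a), hu⟩
        rw [Matrix.mulVec, dotProduct, Pi.zero_apply] at h1
        rw [← h1]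
        symm
        rw [← Finset.sum_subset (Finset.subset_univ (Finset.univ.filter
          (fun p : E => p.1.2 = a)))]
        · refine Finset.sum_bij (fun p _ => p.1.1) ?_ ?_ ?_ ?_
          · rintro ⟨⟨y, b⟩, hb⟩ hq
            have : b = a := (Finset.mem_filter.mp hq).2
            subst this
            exact Finset.mem_filter.mpr ⟨Finset.mem_univ _, hb⟩
          · rintro ⟨⟨y, b⟩, hb⟩ hq ⟨⟨y', b'⟩, hb'⟩ hq' hyy
            have e1 : b = a := (Finset.mem_filter.mp hq).2
            have e2 : b' = a := (Finset.mem_filter.mp hq').2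
            subst e1 e2
            have : y = y' := hyy
            subst this
            rfl
          · intro y hy
            have hy' := (Finset.mem_filter.mp hy).2
            exact ⟨⟨(y, a), hy'⟩, Finset.mem_filter.mpr ⟨Finset.mem_univ _, rfl⟩, rfl⟩
          · rintro ⟨⟨y, b⟩, hb⟩ hq
            have : b = a := (Finset.mem_filter.mp hq).2
            subst this
            have e0 : M3.transpose ⟨(u, b), hu⟩ ⟨(y, b), hb⟩ = W u y := if_pos rfl
            have e1 : v' y = v ⟨(y, b), hb⟩ := dif_pos hb
            change M3.transpose ⟨(u, b), hu⟩ ⟨(y, b), hb⟩ * v ⟨(y, b), hb⟩ = W u y * v' y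
            rw [e0, e1]
        · rintro ⟨⟨y, b⟩, hb⟩ _ hq
          have : ¬ b = a := by
            intro h
            exact hq (Finset.mem_filter.mpr ⟨Finset.mem_univ _, h⟩)
          have e0 : M3.transpose ⟨(u, a), hu⟩ ⟨(y, b), hb⟩ = 0 := if_neg this
          rw [e0, zero_mul])
    have := key x (Finset.mem_filter.mpr ⟨Finset.mem_univ _, hp⟩)
    simp only [v'] at this
    rw [dif_pos hp] at this
    exact this
  have := rank_comp M1 M2 M3 M4 hc h4 h3
  simpa only [Fintype.card_coe] using this

end P038.H766
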